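import Vale.Agent.P366.Kerr.DefsO

/-! The part of an exterior outside an enclosing cut. -/

open MeasureTheory Metric Filter Topology Set
open scoped ContDiff ENNReal

noncomputable section
namespace Vale.Agent.P366.KSD

open Vale.Agent.P366.Kerr (IsOuter)

variable {n : ℕ} {D D' : Stmt.Exterior n}

theorem outer_refl (D : Stmt.Exterior n) : IsOuter D D := ⟨fun _ h => h, rfl, rfl⟩

theorem outer_area (h : IsOuter D' D) (G : Stmt.E n → ℝ) : D.area G ≤ D'.area G := by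
  unfold Stmt.Exterior.area
  rw [h.met]
  refine sSup_le_sSup ?_
  rintro a ⟨X, hX, rfl⟩
  refine ⟨X, ⟨hX.1, hX.2.1, fun x hx => ?_⟩, rfl⟩
  rw [h.met]
  exact hX.2.2 x (h.sub x hx)

theorem outer_Amin (h : IsOuter D' D) : D.Amin ≤ D'.Amin := by
  unfold Stmt.Exterior.Amin
  refine le_sInf ?_
  rintro a ⟨G, hG, hs, rfl⟩
  have h1 : D.area G ∈ {a | ∃ G, Stmt.IsExt G ∧ (∀ x, 0 ≤ G x → 0 ≤ D.F x) ∧ a = D.area G} :=
    ⟨G, hG, fun x hx => h.sub x (hs x hx), rfl⟩
  exact (sInf_le h1).trans (outer_area h G)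

theorem outer_AF (h : IsOuter D' D) (hA : D.IsAF) : D'.IsAF := by
  unfold Stmt.Exterior.IsAF
  rw [h.met, h.sff]
  exact hA

theorem outer_energy (h : IsOuter D' D) {m : ℝ} (hm : D.IsEnergy m) : D'.IsEnergy m := by
  unfold Stmt.Exterior.IsEnergy
  rw [h.met]
  exact hm

theorem outer_momentum (h : IsOuter D' D) {P : Fin n → ℝ} (hP : D.IsMomentum P) :
    D'.IsMomentum P := by
  unfold Stmt.Exterior.IsMomentum
  rw [h.met, h.sff]
  exact hP

theorem outer_DEC (h : IsOuter D' D) (hD : D.DEC) : D'.DEC := by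
  unfold Stmt.Exterior.DEC
  rw [h.met, h.sff]
  exact fun x hx => hD x (h.sub x hx)

/-- the term of the area for the outer part is larger -/
theorem outer_term [Fact (3 ≤ n)] (h : IsOuter D' D) (htop : D'.Amin ≠ ⊤) :
    D.Amin ≠ ⊤ ∧ (D.Amin.toReal / Stmt.omega n) ^ (((n : ℝ) - 2) / ((n : ℝ) - 1)) / 2 ≤
      (D'.Amin.toReal / Stmt.omega n) ^ (((n : ℝ) - 2) / ((n : ℝ) - 1)) / 2 := by
  have h1 := outer_Amin h
  have htop' : D.Amin ≠ ⊤ := ne_top_of_le_ne_top htop h1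
  refine ⟨htop', ?_⟩
  have h2 : D.Amin.toReal ≤ D'.Amin.toReal := (ENNReal.toReal_le_toReal htop' htop).2 h1
  have h3 : (3 : ℝ) ≤ (n : ℝ) := by exact_mod_cast Fact.out (p := 3 ≤ n)
  have hom : 0 ≤ Stmt.omega n := by
    unfold Stmt.omega Stmt.sphInt Stmt.sph
    exact mul_nonneg (by positivity) (integral_nonneg fun _ => zero_le_one)
  have h4 : (D.Amin.toReal / Stmt.omega n) ^ (((n : ℝ) - 2) / ((n : ℝ) - 1)) ≤
      (D'.Amin.toReal / Stmt.omega n) ^ (((n : ℝ) - 2) / ((n : ℝ) - 1)) := by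
    refine Real.rpow_le_rpow (div_nonneg ENNReal.toReal_nonneg hom)
      (div_le_div_of_nonneg_right h2 hom) ?_
    have h5 : 0 < (n : ℝ) - 1 := by linarith
    exact div_nonneg (by linarith) h5.le
  linarith

end Vale.Agent.P366.KSD
end
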