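import Vale.Agent.P366.H208.M.Sl
import Vale.Agent.P366.H222.K.Cau
import Vale.Agent.P366.Kerr.DefsD
import Vale.Agent.P366.H353.D.L10

/-! The divergence of the flux field of the constant vector `ξ` is nonnegative under the mixed
energy condition. -/

open MeasureTheory Metric Filter Topology Set
open scoped ContDiff ENNReal

noncomputable section
namespace Vale.Agent.P366.KSD

open Vale.Agent.P366 (pd E flux)
open Vale.Agent.P366.H353.N
open Vale.Agent.P366.Kerr (NullCone Psi pt sp sgn ksL ein IsKS FutTimelike DECatL IsGraph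
  IsSliceL HasDEC MixDEC IsFut indG indK tng con lapse)
open Vale.Agent.P366.KSN (Y OO mem_OO isOpen_OO Y_cont dts sg)
open Vale.Agent.P366.KSL
open Vale.Agent.P366.GC (Sl Met Nv)

variable {n : ℕ} {C : NullCone n} {l : Fin (n + 1) → E (n + 1) → ℝ} {V : E (n + 1) → ℝ}
  {f : E n → ℝ} {D : Stmt.Exterior n} {p : E (n + 1)} {x y : E n} {ξ : Fin (n + 1) → ℝ}

/-! ### at a point -/

/-- the quadratic form of the Kerr-Schild metric -/
theorem form_ksL (l : Fin (n + 1) → E (n + 1) → ℝ) (V : E (n + 1) → ℝ) (p : E (n + 1))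
    (X Y : Fin (n + 1) → ℝ) : ∑ a, ∑ b, ksL l V p a b * X a * Y b =
      -(X 0 * Y 0) + ∑ i : Fin n, X i.succ * Y i.succ +
        V p * (∑ a, l a p * X a) * (∑ a, l a p * Y a) := by
  have e1 : ∀ a b, ksL l V p a b * X a * Y b = (if a = b then sgn a else 0) * X a * Y b +
      V p * ((l a p * X a) * (l b p * Y b)) := fun a b => by unfold ksL; ring
  simp only [e1, Finset.sum_add_distrib, ← Finset.mul_sum, ← Finset.sum_mul]
  have e2 : ∑ a, ∑ b, (if a = b then (sgn a : ℝ) else 0) * X a * Y b =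
      ∑ a, sgn a * (X a * Y a) := by
    refine Finset.sum_congr rfl fun a _ => ?_
    simp only [ite_mul, zero_mul, Finset.sum_ite_eq, Finset.mem_univ, if_true]
    ring
  rw [e2, Fin.sum_univ_succ, sgn_zero]
  simp only [sgn_succ, one_mul]
  ring

/-- the density of the flux -/
theorem dens_eq (hS : IsSliceL C l V f D) (hg : ∀ y, 0 ≤ D.F y → V (pt (f y) y) ≠ 0 →
      ∃ κ : ℝ, ∀ a, acc l a (pt (f y) y) = κ * l a (pt (f y) y))
    (hy : ∀ᶠ z in 𝓝 y, 0 ≤ D.F z) (ξ : Fin (n + 1) → ℝ) :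
    -∑ b, ξ b * ∑ i, pd i (Zf l V f b i) y =
      ∑ d, ∑ b, ein (ksL l V) d b (pt (f y) y) * (-Nn l V f y d) * ξ b := by
  have hy0 := hy.self_of_nhds
  have hK := hS.ks y hy0
  have hsm := hS.smf y hy0
  have hd : DifferentiableAt ℝ f y := hsm.differentiableAt (by simp)
  have hgeo : V (pt (f y) y) = 0 ∨ ∀ᶠ z in 𝓝 y, ∃ κ : ℝ, ∀ a,
      acc l a (pt (f z) z) = κ * l a (pt (f z) z) := by
    by_cases hV : V (pt (f y) y) = 0
    · exact Or.inl hV
    · have hc : ContinuousAt (fun z => V (pt (f z) z)) y :=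
        ContinuousAt.comp (g := V) (f := fun z => pt (f z) z) hK.smV.continuousAt
          (pt_contAt hsm.continuousAt)
      right
      filter_upwards [hc.eventually_ne hV, hy] with z hz hz0
      exact hg z hz0 hz
  simp only [n_div_Z hsm hK hgeo]
  have e1 : ∀ b, Gm l V 0 b (pt (f y) y) - ∑ j : Fin n, pd j f y * Gm l V j.succ b (pt (f y) y) =
      ∑ d, ein (ksL l V) d b (pt (f y) y) * Nn l V f y d := by
    intro b
    have e2 : Gm l V 0 b (pt (f y) y) - ∑ j : Fin n, pd j f y * Gm l V j.succ b (pt (f y) y) =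
        ∑ a, con f y a * Gm l V a b (pt (f y) y) := by
      rw [Fin.sum_univ_succ, con_zero]
      simp only [con_succ hd]
      rw [one_mul, sub_eq_add_neg, ← Finset.sum_neg_distrib]
      congr 1
      exact Finset.sum_congr rfl fun j _ => by ring
    rw [e2]
    unfold Gm Nn
    simp only [Finset.mul_sum]
    rw [Finset.sum_comm]
    exact Finset.sum_congr rfl fun d _ => Finset.sum_congr rfl fun a _ => by ring
  simp only [e1]
  rw [Finset.sum_comm, ← Finset.sum_neg_distrib]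
  refine Finset.sum_congr rfl fun b _ => ?_
  rw [Finset.mul_sum, ← Finset.sum_neg_distrib]
  exact Finset.sum_congr rfl fun d _ => by ring

theorem tau_eq (hy : DifferentiableAt ℝ f y) (hn : ∑ a, sgn a * l a (pt (f y) y) ^ 2 = 0) :
    ∑ a, l a (pt (f y) y) * (-Nn l V f y a) =
      l 0 (pt (f y) y) + ∑ i : Fin n, l i.succ (pt (f y) y) * pd i f y := by
  have e1 : ∀ a, l a (pt (f y) y) * (-Nn l V f y a) =
      -∑ b, con f y b * (Stmt.up (ksL l V) b a (pt (f y) y) * l a (pt (f y) y)) := by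
    intro a
    unfold Nn
    rw [mul_neg, Finset.mul_sum]
    congr 1
    exact Finset.sum_congr rfl fun b _ => by ring
  simp only [e1, Finset.sum_neg_distrib]
  rw [Finset.sum_comm]
  have e2 : ∀ b, ∑ a, con f y b * (Stmt.up (ksL l V) b a (pt (f y) y) * l a (pt (f y) y)) =
      con f y b * (sgn b * l b (pt (f y) y)) := by
    intro b
    rw [← Finset.mul_sum]
    congr 1
    simp only [up_null hn, sub_mul, Finset.sum_sub_distrib]
    have a1 : ∑ a, kd b a * sgn b * l a (pt (f y) y) = sgn b * l b (pt (f y) y) := by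
      rw [← KSN.sum_kd_mul b (fun a => sgn b * l a (pt (f y) y))]
      exact Finset.sum_congr rfl fun a _ => by ring
    have a2 : ∑ a, V (pt (f y) y) * (sgn b * l b (pt (f y) y)) * (sgn a * l a (pt (f y) y)) *
        l a (pt (f y) y) = V (pt (f y) y) * (sgn b * l b (pt (f y) y)) *
          ∑ a, sgn a * l a (pt (f y) y) ^ 2 := by
      rw [Finset.mul_sum]
      exact Finset.sum_congr rfl fun a _ => by ring
    rw [a1, a2, hn]
    ring
  simp only [e2]
  rw [Fin.sum_univ_succ, con_zero, sgn_zero]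
  simp only [con_succ hy, sgn_succ, one_mul]
  rw [neg_add, ← Finset.sum_neg_distrib]
  congr 1
  · ring
  · exact Finset.sum_congr rfl fun i _ => by ring

/-- The equations of Gauss and Codazzi apply at an interior point. -/
theorem data_aux [Fact (3 ≤ n)] (hS : IsSliceL C l V f D) (hy : ∀ᶠ z in 𝓝 y, 0 ≤ D.F z)
    (hdec : Stmt.covNorm D.g (Stmt.mom D.g D.K) y ≤ Stmt.mu D.g D.K y) :
    ∃ (U : Set (E (n + 1))) (W : Set (E n)) (N : ℝ), y ∈ W ∧ Sl (ksL l V) f U W ∧
      Stmt.covNorm (indG (ksL l V) f) (Stmt.mom (indG (ksL l V) f) (indK (ksL l V) f)) y ≤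
        Stmt.mu (indG (ksL l V) f) (indK (ksL l V) f) y ∧
      (Stmt.mat (indG (ksL l V) f) y).PosDef ∧ 0 < N ∧ N ^ 2 * bb l V f y = 1 ∧
      (∀ a, Nv (ksL l V) f a y = N * (-Nn l V f y a)) ∧
      ∀ X : Fin (n + 1) → ℝ, ∑ a, ∑ b, ksL l V (pt (f y) y) a b * X a * X b ≤ 0 →
        0 < ∑ a, l a (pt (f y) y) * X a →
        ∑ a, ∑ b, ksL l V (pt (f y) y) a b * Nv (ksL l V) f a y * X b ≤ 0 := by
  have hy0 := hy.self_of_nhds
  have hK := hS.ks y hy0
  have hd : DifferentiableAt ℝ f y := (hS.smf y hy0).differentiableAt (by simp)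
  have hn := hK.null.self_of_nhds
  obtain ⟨U, W, hyW, hSl⟩ := sl_near hS hy
  -- the germs
  have hg : D.g =ᶠ[𝓝 y] indG (ksL l V) f := by
    filter_upwards [hy] with z hz
    funext i j
    exact hS.met z hz i j
  have hk : D.K =ᶠ[𝓝 y] indK (ksL l V) f := by
    filter_upwards [hy] with z hz
    funext i j
    exact hS.sff z hz i j
  rw [covNorm_germ hg hk, mu_germ hg hk] at hdec
  have hpd : (Stmt.mat (indG (ksL l V) f) y).PosDef := by
    have h1 := D.pos y hy0
    have h2 : Stmt.mat D.g y = Stmt.mat (indG (ksL l V) f) y := by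
      ext i j
      exact hS.met y hy0 i j
    rwa [h2] at h1
  -- the lapse
  have hb := bb_pos hS hy0
  have hlap : 0 < lapse (ksL l V) f y := by
    unfold lapse
    rw [up_con hK hd]
    exact one_div_pos.2 (Real.sqrt_pos.2 hb)
  have hlap2 : lapse (ksL l V) f y ^ 2 * bb l V f y = 1 := by
    unfold lapse
    rw [up_con hK hd, div_pow, Real.sq_sqrt hb.le]
    field_simp
  set N := lapse (ksL l V) f y with hN
  have hNv : ∀ a, Nv (ksL l V) f a y = N * (-Nn l V f y a) := by
    intro a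
    unfold Nv Nn
    have h2 : ∑ b, Stmt.up (ksL l V) a b (pt (f y) y) * con f y b =
        ∑ b, con f y b * Stmt.up (ksL l V) b a (pt (f y) y) := by
      refine Finset.sum_congr rfl fun b _ => ?_
      rw [hSl.met.up_symm (hSl.map y hyW) a b]
      ring
    rw [h2]
    ring
  -- the covector `dt - df`
  have hcon : ∀ b, ∑ a, ksL l V (pt (f y) y) a b * Nn l V f y a = con f y b := by
    intro b
    unfold Nn
    simp only [Finset.mul_sum]
    rw [Finset.sum_comm]
    have e1 : ∀ c, ∑ a, ksL l V (pt (f y) y) a b *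
        (con f y c * Stmt.up (ksL l V) c a (pt (f y) y)) =
        con f y c * (if c = b then 1 else 0) := by
      intro c
      rw [← hSl.met.up_g (hSl.map y hyW) c b, Finset.mul_sum]
      exact Finset.sum_congr rfl fun a _ => by ring
    simp only [e1]
    simp
  refine ⟨U, W, N, hyW, hSl, hdec, hpd, hlap, hlap2, hNv, fun X hX hl => ?_⟩
  have hform : ∑ a, ∑ b, ksL l V (pt (f y) y) a b * Nv (ksL l V) f a y * X b =
      -(N * (X 0 - ∑ i : Fin n, pd i f y * X i.succ)) := by
    simp only [hNv]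
    rw [Finset.sum_comm]
    have e1 : ∀ b, ∑ a, ksL l V (pt (f y) y) a b * (N * -Nn l V f y a) * X b =
        -(N * (con f y b * X b)) := by
      intro b
      rw [← hcon b, Finset.sum_mul, Finset.mul_sum, ← Finset.sum_neg_distrib]
      exact Finset.sum_congr rfl fun a _ => by ring
    simp only [e1, Finset.sum_neg_distrib, ← Finset.mul_sum]
    rw [Fin.sum_univ_succ, con_zero]
    simp only [con_succ hd, neg_mul, Finset.sum_neg_distrib]
    ring
  rw [form_ksL] at hX
  have hc := con_pos (L := fun a => l a (pt (f y) y)) (v := V (pt (f y) y)) (X := X)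
    (u := fun i => pd i f y) (null_at hK) hK.fut (lap2_pos hS hy0) (tau_pos hS y hy0) (by
      have e : ∑ i : Fin n, X i.succ ^ 2 = ∑ i : Fin n, X i.succ * X i.succ :=
        Finset.sum_congr rfl fun i _ => sq _
      rw [e]
      linarith) hl
  rw [hform]
  have := mul_pos hlap hc
  linarith

/-- The dominant energy condition of the data at an interior point. -/
theorem data_pos [Fact (3 ≤ n)] (hS : IsSliceL C l V f D) (hy : ∀ᶠ z in 𝓝 y, 0 ≤ D.F z)
    (hdec : Stmt.covNorm D.g (Stmt.mom D.g D.K) y ≤ Stmt.mu D.g D.K y) {X : Fin (n + 1) → ℝ}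
    (hX : ∑ a, ∑ b, ksL l V (pt (f y) y) a b * X a * X b ≤ 0)
    (hl : 0 < ∑ a, l a (pt (f y) y) * X a) :
    0 ≤ ∑ d, ∑ b, ein (ksL l V) d b (pt (f y) y) * (-Nn l V f y d) * X b := by
  obtain ⟨U, W, N, hyW, hSl, hdec', hpd, hN, -, hNv, hc⟩ := data_aux hS hy hdec
  have h1 := GC.dec_pos hSl hyW hpd hdec' hX (hc X hX hl)
  have h2 : ∑ a, ∑ b, ein (ksL l V) a b (pt (f y) y) * Nv (ksL l V) f a y * X b =
      N * ∑ d, ∑ b, ein (ksL l V) d b (pt (f y) y) * (-Nn l V f y d) * X b := by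
    simp only [hNv, Finset.mul_sum]
    exact Finset.sum_congr rfl fun a _ => Finset.sum_congr rfl fun b _ => by ring
  rw [h2] at h1
  exact nonneg_of_mul_nonneg_right h1 hN

/-- The case of equality. -/
theorem data_zero [Fact (3 ≤ n)] (hS : IsSliceL C l V f D) (hy : ∀ᶠ z in 𝓝 y, 0 ≤ D.F z)
    (hdec : Stmt.covNorm D.g (Stmt.mom D.g D.K) y ≤ Stmt.mu D.g D.K y) {X : Fin (n + 1) → ℝ}
    (hX : ∑ a, ∑ b, ksL l V (pt (f y) y) a b * X a * X b < 0)
    (hl : 0 < ∑ a, l a (pt (f y) y) * X a)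
    (h0 : ∑ d, ∑ b, ein (ksL l V) d b (pt (f y) y) * (-Nn l V f y d) * X b = 0)
    (b : Fin (n + 1)) : ∑ d, ein (ksL l V) d b (pt (f y) y) * (-Nn l V f y d) = 0 := by
  obtain ⟨U, W, N, hyW, hSl, hdec', hpd, hN, -, hNv, hc⟩ := data_aux hS hy hdec
  have h1 := GC.dec_zero hSl hyW hpd hdec' hX (hc X hX.le hl) (by
    have h2 : ∑ a, ∑ b, ein (ksL l V) a b (pt (f y) y) * Nv (ksL l V) f a y * X b =
        N * ∑ d, ∑ b, ein (ksL l V) d b (pt (f y) y) * (-Nn l V f y d) * X b := by
      simp only [hNv, Finset.mul_sum]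
      exact Finset.sum_congr rfl fun a _ => Finset.sum_congr rfl fun b _ => by ring
    rw [h2, h0, mul_zero]) b
  have h3 : ∑ a, ein (ksL l V) a b (pt (f y) y) * Nv (ksL l V) f a y =
      N * ∑ d, ein (ksL l V) d b (pt (f y) y) * (-Nn l V f y d) := by
    simp only [hNv, Finset.mul_sum]
    exact Finset.sum_congr rfl fun a _ => by ring
  rw [h3] at h1
  exact (mul_eq_zero.1 h1).resolve_left hN.ne'

/-- a future timelike vector of the Minkowski metric -/
theorem l_fut (hK : IsKS l V p) (hξ : IsFut ξ) : 0 < ∑ a, l a p * ξ a := by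
  obtain ⟨h0, h1⟩ := hξ
  have h2 := Finset.sum_mul_sq_le_sq_mul_sq Finset.univ (fun i : Fin n => l i.succ p)
    (fun i => ξ i.succ)
  rw [null_at hK] at h2
  have hl := hK.fut
  have h3 : (∑ i : Fin n, l i.succ p * ξ i.succ) ^ 2 < (l 0 p * ξ 0) ^ 2 := by
    calc _ ≤ l 0 p ^ 2 * ∑ i : Fin n, ξ i.succ ^ 2 := h2
      _ < l 0 p ^ 2 * ξ 0 ^ 2 := mul_lt_mul_of_pos_left h1 (by positivity)
      _ = _ := by ring
  have h4 := (abs_lt.1 (abs_lt_of_sq_lt_sq h3 (mul_pos hl h0).le)).1
  rw [Fin.sum_univ_succ]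
  linarith

/-- interior points -/
theorem F_int (hy : ∀ᶠ z in 𝓝 y, 0 ≤ D.F z) : 0 < D.F y := by
  rcases hy.self_of_nhds.lt_or_eq with h | h
  · exact h
  exfalso
  have hmin : IsLocalMin D.F y := by
    filter_upwards [hy] with z hz
    rw [← h]
    exact hz
  obtain ⟨i, hi⟩ := D.dom.2.1 _ h.symm
  apply hi
  have hsm : DifferentiableAt ℝ D.F y := D.dom.1.differentiable (by simp) _
  rw [Vale.Agent.P366.Bridge.pd_eq hsm, Vale.Agent.P366.pd, hmin.fderiv_eq_zero]
  rfl

/-- positivity at interior points -/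
theorem mix_int [Fact (3 ≤ n)] (hS : IsSliceL C l V f D) (hξ : IsFut ξ)
    (hD : MixDEC l V f ξ D) (hy : ∀ᶠ z in 𝓝 y, 0 ≤ D.F z) :
    0 ≤ -∑ b, ξ b * ∑ i, pd i (Zf l V f b i) y := by
  have hy0 := hy.self_of_nhds
  have hK := hS.ks y hy0
  have hd : DifferentiableAt ℝ f y := (hS.smf y hy0).differentiableAt (by simp)
  rw [dens_eq hS hD.geo hy]
  rcases hD.mix y (F_int hy) with h | ⟨h, h'⟩
  · refine data_pos hS hy (hD.dec y hy0) ?_ (l_fut hK hξ)
    rw [form_ksL]
    have e : ∑ i : Fin n, ξ i.succ * ξ i.succ = ∑ i : Fin n, ξ i.succ ^ 2 :=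
      Finset.sum_congr rfl fun i _ => (sq _).symm
    rw [e]
    linarith
  · have hk : V (pt (f y) y) = 0 ∨ ekk l V (pt (f y) y) = 0 := by
      by_cases hV : V (pt (f y) y) = 0
      · exact Or.inl hV
      · exact Or.inr (ekk_zero hK (hD.geo y hy0 hV))
    set X : Fin (n + 1) → ℝ := Fin.cons 1 (fun j => pd j f y) with hX
    have h2 := posT0 hK.null.self_of_nhds hK.fut (n_ein_symm hK) hk h (X := X) (ξ := ξ) ?_ ?_
      hξ.2.le hξ.1.le
    · have e1 : ∀ a, sgn a * X a = -con f y a := by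
        intro a
        refine Fin.cases ?_ (fun i => ?_) a
        · rw [sgn_zero, con_zero, hX, Fin.cons_zero]; ring
        · rw [sgn_succ, con_succ hd, hX, Fin.cons_succ]; ring
      have e2 : ∑ a, ∑ b, sgn a * X a * Gm l V a b (pt (f y) y) * ξ b =
          ∑ d, ∑ b, ein (ksL l V) d b (pt (f y) y) * (-Nn l V f y d) * ξ b := by
        simp only [e1]
        rw [Finset.sum_comm]
        conv_rhs => rw [Finset.sum_comm]
        refine Finset.sum_congr rfl fun b _ => ?_
        unfold Gm Nn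
        simp only [← Finset.sum_mul]
        congr 1
        simp only [Finset.mul_sum, ← Finset.sum_neg_distrib]
        rw [Finset.sum_comm]
        exact Finset.sum_congr rfl fun d _ => Finset.sum_congr rfl fun a _ => by ring
      rwa [e2] at h2
    · simp only [hX, Fin.cons_succ, Fin.cons_zero]
      refine le_trans (le_of_eq (Finset.sum_congr rfl fun i _ => ?_)) (h'.trans (by norm_num))
      rw [KSN.stmt_pd hd]
    · simp [hX]

/-- positivity -/
theorem mix_pos [Fact (3 ≤ n)] (hS : IsSliceL C l V f D) (hξ : IsFut ξ)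
    (hD : MixDEC l V f ξ D) (hy : 0 ≤ D.F y) :
    0 ≤ -∑ b, ξ b * ∑ i, pd i (Zf l V f b i) y := by
  refine ext_cl hS.dom (g := fun y => -∑ b, ξ b * ∑ i, pd i (Zf l V f b i) y) (fun z hz => ?_)
    (fun z hz => mix_int hS hξ hD hz) hy
  refine ContinuousAt.neg (tendsto_finsetSum _ fun b _ => ContinuousAt.mul continuousAt_const
    (tendsto_finsetSum _ fun i _ => ?_))
  exact (KSN.X5.cd_pd (Z_smooth hS.toIsGraph hz b i) i).continuousAt

/-- the mixed energy condition gives the positivity in the frame of `ξ` -/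
theorem posAt_of_mix [Fact (3 ≤ n)] (hS : IsSliceL C l V f D) (hξ : IsFut ξ)
    (hD : MixDEC l V f ξ D) : PosAt C l V f f D (aa ξ) where
  toIsGraph := hS.toIsGraph
  far := ⟨0, fun _ _ => rfl⟩
  geob := fun x hx => by
    have hy : 0 ≤ D.F (Y C.H x (C.U x)) := mem_Y hS.dom hx le_rfl
    by_cases hV : V (pt (f (Y C.H x (C.U x))) (Y C.H x (C.U x))) = 0
    · exact Or.inl hV
    · exact Or.inr (hD.geo _ hy hV)
  pos := fun y hy => by
    rw [sum_pd_Fa hS.toIsGraph hy]
    have h1 := mix_pos hS hξ hD hy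
    have hN := NN_pos hξ.2
    have e : -∑ b, xi (aa ξ) b * ∑ i, pd i (Zf l V f b i) y =
        (-∑ b, ξ b * ∑ i, pd i (Zf l V f b i) y) / NN ξ := by
      rw [neg_div, Finset.sum_div]
      congr 1
      exact Finset.sum_congr rfl fun b _ => by rw [xi_aa hξ.2 hξ.1]; ring
    rw [e]
    exact div_nonneg h1 hN.le

end Vale.Agent.P366.KSD
end
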