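import Vale.Agent.P366.H208.G.Pos
import Vale.Agent.P366.H896.D.Defs
import Vale.Agent.P366.H707.N.Alg

/-! A slice of a Kerr-Schild spacetime is a spacelike hypersurface in the sense of the equations of
Gauss and Codazzi; the data are determined by germs. -/

open MeasureTheory Metric Filter Topology Set
open scoped ContDiff ENNReal

noncomputable section
namespace Vale.Agent.P366.KSL

open Vale.Agent.P366 (pd E flux)
open Vale.Agent.P366.H353.N
open Vale.Agent.P366.Kerr (NullCone Psi pt sp sgn ksL ein IsKS FutTimelike DECatL IsGraph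
  IsSliceL HasDEC indG indK tng con lapse)
open Vale.Agent.P366.H896 (CR)
open Vale.Agent.P366.GC (Sl Met Nv)
open Vale.Agent.P366.H707.N (KM det_alg)

variable {n : ℕ} {C : NullCone n} {l : Fin (n + 1) → E (n + 1) → ℝ} {V : E (n + 1) → ℝ}
  {f : E n → ℝ} {D : Stmt.Exterior n} {p : E (n + 1)} {x y : E n}

/-! ### the hypersurface -/

theorem nat_le (r : ℕ) : (r : WithTop ℕ∞) ≤ ((⊤ : ℕ∞) : WithTop ℕ∞) :=
  WithTop.coe_le_coe.2 le_top

theorem det_indG (hK : IsKS l V (pt (f y) y)) (hd : DifferentiableAt ℝ f y) :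
    (Stmt.mat (indG (ksL l V) f) y).det = bb l V f y := by
  have h0 := hK.fut.ne'
  have e : Stmt.mat (indG (ksL l V) f) y = KM (fun i => uh l i.succ (pt (f y) y))
      (fun i => pd i f y) (vv l V (pt (f y) y)) := by
    ext i j
    show indG (ksL l V) f y i j = _
    rw [indG_ksL, Vale.Agent.P366.Bridge.pd_eq hd, Vale.Agent.P366.Bridge.pd_eq hd]
    simp only [KM, Matrix.of_apply, vv, uh]
    field_simp
  have hu : ∑ i : Fin n, uh l i.succ (pt (f y) y) ^ 2 = 1 := by
    unfold uh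
    simp only [div_pow]
    rw [← Finset.sum_div, null_at hK, div_self (pow_ne_zero 2 h0)]
  rw [e, det_alg hu]
  unfold bb ss
  congr 3
  exact congrArg _ (Finset.sum_congr rfl fun i _ => mul_comm _ _)

theorem bb_pos (hS : IsSliceL C l V f D) (hy : 0 ≤ D.F y) : 0 < bb l V f y := by
  have hd : DifferentiableAt ℝ f y := (hS.smf y hy).differentiableAt (by simp)
  have h1 := (D.pos y hy).det_pos
  have h2 : Stmt.mat D.g y = Stmt.mat (indG (ksL l V) f) y := by
    ext i j
    exact hS.met y hy i j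
  rwa [h2, det_indG (hS.ks y hy) hd] at h1

theorem det_ksL (hn : ∑ a, sgn a * l a p ^ 2 = 0) : (Stmt.mat (ksL l V) p).det ≠ 0 := by
  have h : Stmt.mat (ksL l V) p * (Matrix.of fun a b =>
      kd a b * sgn a - V p * (sgn a * l a p) * (sgn b * l b p)) = 1 := by
    ext a b
    rw [Matrix.mul_apply]
    have e1 : ∀ c, Stmt.mat (ksL l V) p a c * (Matrix.of fun a b =>
        kd a b * sgn a - V p * (sgn a * l a p) * (sgn b * l b p)) c b =
        kd a c * (sgn a * (kd c b * sgn c)) - kd a c * (sgn a * (V p * (sgn c * l c p) *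
          (sgn b * l b p))) + kd c b * (V p * l a p * l c p * sgn c) -
          V p * l a p * (V p * (sgn b * l b p)) * (sgn c * l c p ^ 2) := by
      intro c
      show ((if a = c then sgn a else 0) + V p * l a p * l c p) * _ = _
      rw [Matrix.of_apply]
      unfold kd
      split_ifs with h1 h2 h3 <;> ring
    simp only [e1, Finset.sum_sub_distrib, Finset.sum_add_distrib]
    rw [← Finset.mul_sum, hn, mul_zero, sub_zero]
    rw [KSN.sum_kd_mul a, KSN.sum_kd_mul a]
    have e2 : ∑ c, kd c b * (V p * l a p * l c p * sgn c) = V p * l a p * l b p * sgn b := by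
      rw [← KSN.sum_kd_mul b (fun c => V p * l a p * l c p * sgn c)]
      exact Finset.sum_congr rfl fun c _ => by rw [KSN.kd_comm]
    rw [e2]
    have e3 := sgn_sq a
    rw [Matrix.one_apply]
    unfold kd
    split_ifs with h
    · subst h
      linear_combination (1 - V p * l a p * l a p * sgn a) * e3
    · linear_combination (- V p * l a p * l b p * sgn b) * e3
  exact Matrix.det_ne_zero_of_right_inverse h

theorem ksL_symm (l : Fin (n + 1) → E (n + 1) → ℝ) (V : E (n + 1) → ℝ) (p : E (n + 1))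
    (a b : Fin (n + 1)) : ksL l V p a b = ksL l V p b a := by
  unfold ksL
  rw [mul_assoc, mul_assoc, mul_comm (l a p)]
  congr 1
  by_cases h : a = b
  · subst h; rfl
  · rw [if_neg h, if_neg (Ne.symm h)]

/-- near an interior point the slice is a hypersurface -/
theorem sl_near (hS : IsSliceL C l V f D) (hy : ∀ᶠ z in 𝓝 y, 0 ≤ D.F z) :
    ∃ (U : Set (E (n + 1))) (W : Set (E n)), y ∈ W ∧ Sl (ksL l V) f U W := by
  have hy0 := hy.self_of_nhds
  have hK := hS.ks y hy0
  set A : Set (E (n + 1)) := {q | ContDiffAt ℝ ((4 : ℕ) : WithTop ℕ∞) V q ∧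
    (∀ a, ContDiffAt ℝ ((4 : ℕ) : WithTop ℕ∞) (l a) q) ∧ ∑ a, sgn a * l a q ^ 2 = 0} with hA
  have hAn : A ∈ 𝓝 (pt (f y) y) := by
    have h1 : ∀ᶠ q in 𝓝 (pt (f y) y), ContDiffAt ℝ ((4 : ℕ) : WithTop ℕ∞) V q :=
      (hK.smV.of_le (nat_le 4)).eventually (by simp)
    have h2 : ∀ᶠ q in 𝓝 (pt (f y) y), ∀ a, ContDiffAt ℝ ((4 : ℕ) : WithTop ℕ∞) (l a) q :=
      eventually_all.2 fun a => ((hK.sml a).of_le
      (nat_le 4)).eventually (by simp)
    filter_upwards [h1, h2, hK.null] with q a1 a2 a3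
    exact ⟨a1, a2, a3⟩
  set U := interior A with hU
  set B : Set (E n) := {z | 0 ≤ D.F z ∧ pt (f z) z ∈ U} with hB
  have hBn : B ∈ 𝓝 y := by
    have h1 : ∀ᶠ z in 𝓝 y, pt (f z) z ∈ U :=
      (pt_contAt (hS.smf y hy0).continuousAt).eventually
        (isOpen_interior.mem_nhds (mem_interior_iff_mem_nhds.2 hAn))
    filter_upwards [hy, h1] with z a1 a2
    exact ⟨a1, a2⟩
  refine ⟨U, interior B, mem_interior_iff_mem_nhds.2 hBn, ?_⟩
  have hWB : ∀ z ∈ interior B, 0 ≤ D.F z ∧ pt (f z) z ∈ U := fun z hz =>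
    (interior_subset hz : z ∈ B)
  refine ⟨⟨isOpen_interior, fun a b q hq => ?_, fun q _ a b => ksL_symm l V q a b,
    fun q hq => det_ksL (interior_subset hq : q ∈ A).2.2⟩, isOpen_interior, fun z hz => ?_,
    fun z hz => (hWB z hz).2, fun z hz => ?_, fun z hz => ?_⟩
  · have hq' : q ∈ A := interior_subset hq
    exact contDiffAt_const.add ((hq'.1.mul (hq'.2.1 a)).mul (hq'.2.1 b))
  · exact (hS.smf z (hWB z hz).1).of_le
      (nat_le 6)
  · have hz0 := (hWB z hz).1
    have hd : DifferentiableAt ℝ f z := (hS.smf z hz0).differentiableAt (by simp)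
    have h1 := up_con (hS.ks z hz0) hd
    have h2 := bb_pos hS hz0
    linarith
  · have hz0 := (hWB z hz).1
    have hd : DifferentiableAt ℝ f z := (hS.smf z hz0).differentiableAt (by simp)
    rw [det_indG (hS.ks z hz0) hd]
    exact (bb_pos hS hz0).ne'

/-! ### the data are determined by germs -/

section germ

variable {g g' K K' : Stmt.Field n}

theorem pd_germ {u u' : E n → ℝ} (h : u =ᶠ[𝓝 y] u') (i : Fin n) :
    Stmt.pd i u =ᶠ[𝓝 y] Stmt.pd i u' := by
  filter_upwards [h.eventually_nhds] with z hz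
  unfold Stmt.pd
  exact Filter.EventuallyEq.lineDeriv_eq hz

theorem up_germ (h : g =ᶠ[𝓝 y] g') (i j : Fin n) : Stmt.up g i j =ᶠ[𝓝 y] Stmt.up g' i j := by
  filter_upwards [h] with z hz
  unfold Stmt.up Stmt.mat
  rw [hz]

theorem comp_germ (h : g =ᶠ[𝓝 y] g') (i j : Fin n) :
    (fun z => g z i j) =ᶠ[𝓝 y] fun z => g' z i j := by
  filter_upwards [h] with z hz
  rw [hz]

theorem chr_germ (h : g =ᶠ[𝓝 y] g') (k i j : Fin n) :
    Stmt.chr g k i j =ᶠ[𝓝 y] Stmt.chr g' k i j := by
  have h1 := eventually_all.2 fun l : Fin n => up_germ h k l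
  have h2 := eventually_all.2 fun k : Fin n => eventually_all.2 fun i : Fin n =>
    eventually_all.2 fun j : Fin n => pd_germ (comp_germ h i j) k
  filter_upwards [h1, h2] with z a1 a2
  unfold Stmt.chr
  simp only [a1, a2]

theorem scal_germ (h : g =ᶠ[𝓝 y] g') : Stmt.scal g y = Stmt.scal g' y := by
  have h1 : ∀ i j, Stmt.up g i j y = Stmt.up g' i j y := fun i j => (up_germ h i j).self_of_nhds
  have h2 : ∀ k i j, Stmt.chr g k i j y = Stmt.chr g' k i j y :=
    fun k i j => (chr_germ h k i j).self_of_nhds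
  have h3 : ∀ a k i j, Stmt.pd a (Stmt.chr g k i j) y = Stmt.pd a (Stmt.chr g' k i j) y :=
    fun a k i j => (pd_germ (chr_germ h k i j) a).self_of_nhds
  unfold Stmt.scal
  simp only [h1, h2, h3]

theorem tr_germ (h : g =ᶠ[𝓝 y] g') (hk : K =ᶠ[𝓝 y] K') :
    Stmt.tr g K =ᶠ[𝓝 y] Stmt.tr g' K' := by
  have h1 := eventually_all.2 fun i : Fin n => eventually_all.2 fun j : Fin n => up_germ h i j
  filter_upwards [h1, hk] with z a1 a2
  unfold Stmt.tr
  simp only [a1, a2]

theorem momT_germ (h : g =ᶠ[𝓝 y] g') (hk : K =ᶠ[𝓝 y] K') :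
    Stmt.momT g K =ᶠ[𝓝 y] Stmt.momT g' K' := by
  filter_upwards [h, hk, tr_germ h hk] with z a1 a2 a3
  unfold Stmt.momT
  rw [a1, a2, a3]

theorem mu_germ (h : g =ᶠ[𝓝 y] g') (hk : K =ᶠ[𝓝 y] K') : Stmt.mu g K y = Stmt.mu g' K' y := by
  have h1 : ∀ i j, Stmt.up g i j y = Stmt.up g' i j y := fun i j => (up_germ h i j).self_of_nhds
  have h2 := hk.self_of_nhds
  unfold Stmt.mu Stmt.normSq
  rw [scal_germ h, (tr_germ h hk).self_of_nhds]
  simp only [h1, h2]

theorem mom_germ (h : g =ᶠ[𝓝 y] g') (hk : K =ᶠ[𝓝 y] K') (j : Fin n) :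
    Stmt.mom g K j y = Stmt.mom g' K' j y := by
  have h1 : ∀ i j, Stmt.up g i j y = Stmt.up g' i j y := fun i j => (up_germ h i j).self_of_nhds
  have h2 : ∀ k i j, Stmt.chr g k i j y = Stmt.chr g' k i j y :=
    fun k i j => (chr_germ h k i j).self_of_nhds
  have h3 : Stmt.momT g K y = Stmt.momT g' K' y := (momT_germ h hk).self_of_nhds
  have h4 : ∀ k i j, Stmt.pd k (fun y => Stmt.momT g K y i j) y =
      Stmt.pd k (fun y => Stmt.momT g' K' y i j) y :=
    fun k i j => (pd_germ (comp_germ (momT_germ h hk) i j) k).self_of_nhds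
  unfold Stmt.mom
  simp only [h1, h2, h3, h4]

theorem covNorm_germ (h : g =ᶠ[𝓝 y] g') (hk : K =ᶠ[𝓝 y] K') :
    Stmt.covNorm g (Stmt.mom g K) y = Stmt.covNorm g' (Stmt.mom g' K') y := by
  have h1 : ∀ i j, Stmt.up g i j y = Stmt.up g' i j y := fun i j => (up_germ h i j).self_of_nhds
  have h2 := mom_germ h hk
  unfold Stmt.covNorm
  simp only [h1, h2]

end germ

end Vale.Agent.P366.KSL
end
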