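import Vale.Agent.P366.H353.D.L10a

/-! The sharpened dominant energy condition of the data: algebra. -/

open MeasureTheory Metric Filter Topology Set
open scoped ContDiff

noncomputable section
namespace Vale.Agent.P366.KSD

/-- the real inequality -/
theorem strong_real {μ x₀ u δ JJ J₁ ZZ p : ℝ} (hu : 0 < u) (hx : 0 ≤ x₀) (hδ : 0 ≤ δ)
    (hZZ : 0 ≤ ZZ) (hZ : ZZ ≤ 2 * x₀ * u - δ) (hA : 0 ≤ JJ - J₁ ^ 2)
    (hμ : 0 ≤ μ) (hJ : JJ ≤ μ ^ 2) (hS : (μ + J₁) ^ 2 + JJ ≤ μ ^ 2)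
    (hp : p ^ 2 ≤ (JJ - J₁ ^ 2) * ZZ) :
    0 ≤ x₀ * μ + (J₁ * (x₀ - u) + p) ∧
      (0 < δ → x₀ * μ + (J₁ * (x₀ - u) + p) = 0 → μ = 0) := by
  set a := μ + J₁ with ha
  set b := -J₁ with hb
  have eμ : μ = a + b := by rw [ha, hb]; ring
  have hJ1 : J₁ ^ 2 ≤ μ ^ 2 := by linarith
  have ha0 : 0 ≤ a := by
    have h1 := abs_le_of_sq_le_sq' hJ1 hμ
    rw [ha]; linarith [h1.1]
  have hAab : JJ - J₁ ^ 2 ≤ 2 * a * b := by
    have h1 : (a : ℝ) ^ 2 + JJ ≤ (a + b) ^ 2 := by rw [← eμ]; exact hS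
    have h2 : J₁ ^ 2 = b ^ 2 := by rw [hb]; ring
    rw [h2]; nlinarith
  have hb0 : 0 ≤ b := by
    rcases ha0.eq_or_lt with h | h
    · rw [← h] at eμ; linarith
    · have h1 : 0 ≤ 2 * a * b := hA.trans hAab
      have h2 : 0 ≤ (2 * a) * b := h1
      exact nonneg_of_mul_nonneg_right h2 (by linarith)
  have e : x₀ * μ + (J₁ * (x₀ - u) + p) = (x₀ * a + u * b) + p := by
    rw [eμ, hb]; ring
  have hq0 : 0 ≤ x₀ * a + u * b := add_nonneg (mul_nonneg hx ha0) (mul_nonneg hu.le hb0)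
  have hp2 : p ^ 2 ≤ 2 * a * b * (2 * x₀ * u - δ) :=
    hp.trans (mul_le_mul hAab hZ hZZ (by positivity))
  have hsq : p ^ 2 ≤ (x₀ * a + u * b) ^ 2 - (x₀ * a - u * b) ^ 2 - 2 * (a * b) * δ := by
    have e1 : (x₀ * a + u * b) ^ 2 - (x₀ * a - u * b) ^ 2 - 2 * (a * b) * δ =
        2 * a * b * (2 * x₀ * u - δ) := by ring
    rw [e1]; exact hp2
  have hab : 0 ≤ a * b := mul_nonneg ha0 hb0
  have habδ : 0 ≤ 2 * (a * b) * δ := by positivity
  rw [e]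
  refine ⟨?_, fun hδ0 h0 => ?_⟩
  · have h1 : p ^ 2 ≤ (x₀ * a + u * b) ^ 2 := by
      have := sq_nonneg (x₀ * a - u * b)
      linarith
    have h2 := abs_le_of_sq_le_sq' h1 hq0
    linarith [h2.1]
  · have h1 : p = -(x₀ * a + u * b) := by linarith
    rw [h1] at hsq
    have h2 : (x₀ * a - u * b) ^ 2 + 2 * (a * b) * δ ≤ 0 := by nlinarith [hsq]
    have h3 : (x₀ * a - u * b) ^ 2 = 0 := le_antisymm (by linarith) (sq_nonneg _)
    have h4 : 2 * (a * b) * δ = 0 := le_antisymm (by linarith [sq_nonneg (x₀ * a - u * b)]) habδ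
    have h5 : a * b = 0 := by
      rcases mul_eq_zero.1 h4 with h | h
      · linarith
      · exact absurd h hδ0.ne'
    have h6 : x₀ * a - u * b = 0 := pow_eq_zero_iff (two_ne_zero) |>.1 h3
    have hx0 : 0 < x₀ := by
      have h7 : 0 < 2 * x₀ * u := by linarith
      rcases hx.eq_or_lt with h | h
      · rw [← h] at h7; simp at h7
      · exact h
    rw [eμ]
    rcases mul_eq_zero.1 h5 with h | h
    · rw [h] at h6 ⊢
      have : u * b = 0 := by linarith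
      rcases mul_eq_zero.1 this with h' | h'
      · exact absurd h' hu.ne'
      · rw [h']; ring
    · rw [h] at h6 ⊢
      have : x₀ * a = 0 := by linarith
      rcases mul_eq_zero.1 this with h' | h'
      · exact absurd h' hx0.ne'
      · rw [h']; ring


open Vale.Agent.P366.H353.DA (psd_cs frame_contr low_N)

variable {n : ℕ}

/-- the Cauchy-Schwarz inequality orthogonal to a covector -/
theorem cs_orth {hi : Matrix (Fin n) (Fin n) ℝ} (hp : hi.PosSemidef)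
    {J s ζ : Fin n → ℝ} {c : ℝ} (hc : 0 < c) (hs : ∑ k, ∑ l, hi k l * s k * s l = c ^ 2) :
    0 ≤ (∑ k, ∑ l, hi k l * J k * J l) - (-(∑ k, ∑ l, hi k l * J k * s l) / c) ^ 2 ∧
    0 ≤ (∑ k, ∑ l, hi k l * ζ k * ζ l) - (-(∑ k, ∑ l, hi k l * s k * ζ l) / c) ^ 2 ∧
    (∑ k, ∑ l, hi k l * J k * ζ l - (-(∑ k, ∑ l, hi k l * J k * s l) / c) *
      (-(∑ k, ∑ l, hi k l * s k * ζ l) / c)) ^ 2 ≤
      ((∑ k, ∑ l, hi k l * J k * J l) - (-(∑ k, ∑ l, hi k l * J k * s l) / c) ^ 2) *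
      ((∑ k, ∑ l, hi k l * ζ k * ζ l) - (-(∑ k, ∑ l, hi k l * s k * ζ l) / c) ^ 2) := by
  have hsym : ∀ i j, hi i j = hi j i := fun i j => by
    have := hp.1.apply i j
    simpa using this.symm
  have hq : ∀ w : Fin n → ℝ, 0 ≤ ∑ i, ∑ j, hi i j * w i * w j := by
    intro w
    have h1 := hp.dotProduct_mulVec_nonneg w
    have e1 : star w ⬝ᵥ hi.mulVec w = ∑ i, ∑ j, hi i j * w i * w j := by
      simp only [dotProduct, Matrix.mulVec, star_trivial, Finset.mul_sum]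
      exact Finset.sum_congr rfl fun i _ => Finset.sum_congr rfl fun j _ => by ring
    rw [← e1]
    exact h1
  have hsw : ∀ u v : Fin n → ℝ, ∑ k, ∑ l, hi k l * u k * v l = ∑ k, ∑ l, hi k l * v k * u l := by
    intro u v
    rw [Finset.sum_comm]
    exact Finset.sum_congr rfl fun i _ => Finset.sum_congr rfl fun j _ => by
      rw [hsym j i]; ring
  have bil : ∀ (u v : Fin n → ℝ) (r q : ℝ),
      ∑ k, ∑ l, hi k l * (u k + r * s k) * (v l + q * s l) =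
        ∑ k, ∑ l, hi k l * u k * v l + q * (∑ k, ∑ l, hi k l * u k * s l) +
          r * (∑ k, ∑ l, hi k l * s k * v l) + r * q * ∑ k, ∑ l, hi k l * s k * s l := by
    intro u v r q
    simp only [Finset.mul_sum, ← Finset.sum_add_distrib]
    exact Finset.sum_congr rfl fun k _ => Finset.sum_congr rfl fun l _ => by ring
  set A := ∑ k, ∑ l, hi k l * J k * s l with hA
  set B := ∑ k, ∑ l, hi k l * s k * ζ l with hB
  have hA' : ∑ k, ∑ l, hi k l * s k * J l = A := hsw _ _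
  have hB' : ∑ k, ∑ l, hi k l * ζ k * s l = B := hsw _ _
  have e1 : ∑ k, ∑ l, hi k l * (J k + -(A / c ^ 2) * s k) * (J l + -(A / c ^ 2) * s l) =
      (∑ k, ∑ l, hi k l * J k * J l) - (-A / c) ^ 2 := by
    rw [bil, hs, hA', ← hA]; field_simp; ring
  have e2 : ∑ k, ∑ l, hi k l * (ζ k + -(B / c ^ 2) * s k) * (ζ l + -(B / c ^ 2) * s l) =
      (∑ k, ∑ l, hi k l * ζ k * ζ l) - (-B / c) ^ 2 := by
    rw [bil, hs, hB', ← hB]; field_simp; ring
  have e3 : ∑ k, ∑ l, hi k l * (J k + -(A / c ^ 2) * s k) * (ζ l + -(B / c ^ 2) * s l) =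
      (∑ k, ∑ l, hi k l * J k * ζ l) - (-A / c) * (-B / c) := by
    rw [bil, hs, ← hA, ← hB]; field_simp; ring
  refine ⟨?_, ?_, ?_⟩
  · rw [← e1]; exact hq _
  · rw [← e2]; exact hq _
  · rw [← e1, ← e2, ← e3]
    exact psd_cs hp _ _

/-- The algebra of the sharpened dominant energy condition. -/
theorem strong_alg {G Gi : Fin (n + 1) → Fin (n + 1) → ℝ} {T : Fin n → Fin (n + 1) → ℝ}
    {N : Fin (n + 1) → ℝ} {hi : Matrix (Fin n) (Fin n) ℝ} (hp : hi.PosSemidef)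
    (hG : ∀ a b, ∑ c, Gi a c * G c b = if a = b then 1 else 0)
    (hGi : ∀ a b, Gi a b = ∑ k, ∑ l, hi k l * T k a * T l b - N a * N b)
    {w L ξ : Fin (n + 1) → ℝ} {J s : Fin n → ℝ} {μ c V δ : ℝ}
    (hwT : ∀ j, ∑ a, w a * T j a = J j) (hwN : ∑ a, w a * N a = μ)
    (hLT : ∀ j, ∑ a, L a * T j a = s j) (hLN : ∑ a, L a * N a = c) (hc : 0 < c)
    (hss : ∑ k, ∑ l, hi k l * s k * s l = c ^ 2) (hLξ : 0 < ∑ a, L a * ξ a)
    (hGξ : ∑ a, ∑ b, G a b * ξ a * ξ b ≤ -δ + V * (∑ a, L a * ξ a) ^ 2) (hδ : 0 < δ)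
    (hV : V * c ^ 2 ≤ 1) (hμ : 0 ≤ μ) (hJ : ∑ k, ∑ l, hi k l * J k * J l ≤ μ ^ 2)
    (hS : (μ - (∑ k, ∑ l, hi k l * J k * s l) / c) ^ 2 + ∑ k, ∑ l, hi k l * J k * J l ≤ μ ^ 2) :
    0 ≤ ∑ a, w a * ξ a ∧ (∑ a, w a * ξ a = 0 → ∀ b, w b = 0) := by
  set ζ : Fin n → ℝ := fun k => ∑ a, (∑ b, G a b * ξ b) * T k a with hζ
  set x₀ : ℝ := -∑ a, (∑ b, G a b * ξ b) * N a with hx₀
  have hcontr : ∀ v : Fin (n + 1) → ℝ, ∑ a, v a * ξ a =
      ∑ k, ∑ l, hi k l * (∑ a, v a * T k a) * ζ l + (∑ a, v a * N a) * x₀ := by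
    intro v
    rw [frame_contr hG hGi v ξ, hx₀, hζ]
    ring
  have hlξ : ∑ a, L a * ξ a = ∑ k, ∑ l, hi k l * s k * ζ l + c * x₀ := by
    rw [hcontr L, hLN]
    simp only [hLT]
  have hwξ : ∑ b, w b * ξ b = ∑ k, ∑ l, hi k l * J k * ζ l + μ * x₀ := by
    rw [hcontr w, hwN]
    simp only [hwT]
  have hGG : ∑ a, ∑ b, G a b * ξ a * ξ b = ∑ k, ∑ l, hi k l * ζ k * ζ l - x₀ ^ 2 := by
    have h1 : ∑ a, (∑ b, G a b * ξ b) * ξ a =
        ∑ k, ∑ l, hi k l * ζ k * ζ l + (∑ a, (∑ b, G a b * ξ b) * N a) * x₀ :=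
      hcontr fun a => ∑ b, G a b * ξ b
    have h2 : ∑ a, (∑ b, G a b * ξ b) * N a = -x₀ := by rw [hx₀]; ring
    rw [low_N, h1, h2]
    ring
  obtain ⟨q1, q2, q3⟩ := cs_orth hp (J := J) (ζ := ζ) hc hss
  set JJ := ∑ k, ∑ l, hi k l * J k * J l with hJJ
  set ZZ := ∑ k, ∑ l, hi k l * ζ k * ζ l with hZZ
  set A := ∑ k, ∑ l, hi k l * J k * s l with hA
  set B := ∑ k, ∑ l, hi k l * s k * ζ l with hB
  set Q := ∑ k, ∑ l, hi k l * J k * ζ l with hQ
  obtain ⟨u, hu⟩ : ∃ u, u = x₀ + B / c := ⟨_, rfl⟩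
  have hcu : c * u = ∑ a, L a * ξ a := by
    rw [hlξ, hu]; field_simp; ring
  have hu0 : 0 < u := by
    rw [← hcu] at hLξ
    exact (pos_iff_pos_of_mul_pos hLξ).1 hc
  have hxu : -B / c = x₀ - u := by rw [hu]; ring
  have hZ : ZZ - (-B / c) ^ 2 ≤ 2 * x₀ * u - δ := by
    rw [hGG, ← hcu] at hGξ
    have h2 : V * (c * u) ^ 2 ≤ u ^ 2 := by
      have h3 : V * (c * u) ^ 2 = (V * c ^ 2) * u ^ 2 := by ring
      rw [h3]
      have := mul_le_mul_of_nonneg_right hV (sq_nonneg u)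
      linarith only [this]
    have h4 : (x₀ - u) ^ 2 = x₀ ^ 2 - 2 * x₀ * u + u ^ 2 := by ring
    rw [hxu, h4]
    linarith only [h2, hGξ]
  have hx0 : 0 ≤ x₀ := by
    have h1 : 0 < 2 * x₀ * u := by linarith only [hZ, q2, hδ]
    by_contra hneg
    have h2 : x₀ * u < 0 := mul_neg_of_neg_of_pos (not_le.1 hneg) hu0
    linarith only [h1, h2]
  have hSh : (μ + -A / c) ^ 2 + JJ ≤ μ ^ 2 := by
    have e1 : μ + -A / c = μ - A / c := by ring
    rw [e1]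
    exact hS
  have hJ0 : 0 ≤ JJ := by
    have := sq_nonneg (-A / c)
    linarith only [this, q1]
  have hfin := strong_real (p := Q - (-A / c) * (-B / c)) hu0 hx0 hδ.le q2 hZ q1 hμ hJ hSh q3
  have hsum : x₀ * μ + (-A / c * (x₀ - u) + (Q - (-A / c) * (-B / c))) = ∑ b, w b * ξ b := by
    rw [hwξ, hxu]; ring
  rw [hsum] at hfin
  refine ⟨hfin.1, fun h0 b => ?_⟩
  have hμz : μ = 0 := hfin.2 hδ h0
  have hJz : JJ = 0 := le_antisymm (by rw [hμz] at hJ; simpa using hJ) hJ0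
  have hall : ∀ v : Fin (n + 1) → ℝ, ∑ b, w b * v b = 0 := by
    intro v
    have f1 := frame_contr hG hGi w v
    simp only [hwT, hwN, hμz, zero_mul, sub_zero] at f1
    rw [f1]
    have c1 := psd_cs hp J (fun l => ∑ a, (∑ b, G a b * v b) * T l a)
    rw [← hJJ, hJz, zero_mul] at c1
    exact pow_eq_zero_iff (two_ne_zero) |>.1 (le_antisymm c1 (sq_nonneg _))
  have h1 := hall (fun b' => if b' = b then 1 else 0)
  simpa using h1

/-- The frame components of a null covector. -/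
theorem null_frame {G Gi : Fin (n + 1) → Fin (n + 1) → ℝ} {T : Fin n → Fin (n + 1) → ℝ}
    {N : Fin (n + 1) → ℝ} {hi : Matrix (Fin n) (Fin n) ℝ}
    (hG : ∀ a b, ∑ c, Gi a c * G c b = if a = b then 1 else 0)
    (hG' : ∀ a b, ∑ c, G a c * Gi c b = if a = b then 1 else 0)
    (hGi : ∀ a b, Gi a b = ∑ k, ∑ l, hi k l * T k a * T l b - N a * N b)
    {L : Fin (n + 1) → ℝ} (hL : ∑ a, ∑ b, Gi a b * L a * L b = 0) :
    ∑ k, ∑ l, hi k l * (∑ a, L a * T k a) * (∑ a, L a * T l a) = (∑ a, L a * N a) ^ 2 := by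
  have f1 := frame_contr hG hGi L (fun a => ∑ b, Gi a b * L b)
  have f2 : ∀ a, ∑ b, G a b * ∑ d, Gi b d * L d = L a := by
    intro a
    simp only [Finset.mul_sum]
    rw [Finset.sum_comm]
    have g2 : ∀ d, ∑ b, G a b * (Gi b d * L d) = (if a = d then 1 else 0) * L d := by
      intro d
      rw [← hG' a d, Finset.sum_mul]
      exact Finset.sum_congr rfl fun b _ => by ring
    simp only [g2]
    simp
  simp only [f2] at f1
  have f3 : ∑ a, L a * ∑ b, Gi a b * L b = ∑ a, ∑ b, Gi a b * L a * L b := by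
    simp only [Finset.mul_sum]
    exact Finset.sum_congr rfl fun a _ => Finset.sum_congr rfl fun b _ => by ring
  rw [f3, hL] at f1
  linarith

end Vale.Agent.P366.KSD
end
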