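import Vale.Agent.P366.H208.M.Mix
import Vale.Agent.P366.H208.M.StrongA
import Vale.Agent.P366.Kerr.DefsS

/-! Positivity of the flux density under the sharpened dominant energy condition of the data. -/

open MeasureTheory Metric Filter Topology Set
open scoped ContDiff ENNReal

noncomputable section
namespace Vale.Agent.P366.KSD

open Vale.Agent.P366 (pd E flux)
open Vale.Agent.P366.H353.N
open Vale.Agent.P366.Kerr (NullCone Psi pt sp sgn ksL ein IsKS FutTimelike DECatL IsGraph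
  IsSliceL HasDEC IsFut indG indK tng con lapse resL SharpAt)
open Vale.Agent.P366.KSN (Y OO mem_OO isOpen_OO Y_cont dts sg)
open Vale.Agent.P366.KSL
open Vale.Agent.P366.GC (Sl Met Nv Tv)

variable {n : ℕ} {C : NullCone n} {l : Fin (n + 1) → E (n + 1) → ℝ} {V : E (n + 1) → ℝ}
  {f : E n → ℝ} {D : Stmt.Exterior n} {p : E (n + 1)} {x y : E n} {ξ : Fin (n + 1) → ℝ}

theorem up_ll (hn : ∑ a, sgn a * l a p ^ 2 = 0) :
    ∑ a, ∑ b, Stmt.up (ksL l V) a b p * l a p * l b p = 0 := by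
  simp only [up_null hn]
  have e1 : ∀ a b, (kd a b * sgn a - V p * (sgn a * l a p) * (sgn b * l b p)) * l a p * l b p =
      kd a b * (sgn a * l a p * l b p) -
      V p * ((sgn a * l a p ^ 2) * (sgn b * l b p ^ 2)) := fun a b => by ring
  simp only [e1, Finset.sum_sub_distrib, ← Finset.mul_sum]
  rw [hn]
  have e2 : ∀ a, ∑ b, kd a b * (sgn a * l a p * l b p) = sgn a * l a p ^ 2 := by
    intro a
    rw [KSN.sum_kd_mul a (fun b => sgn a * l a p * l b p)]
    ring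
  simp only [e2, hn, mul_zero, Finset.sum_const_zero, sub_zero]

/-- `V l(N)² ≤ 1` if the hypersurface is spacelike or null for the Minkowski metric -/
theorem V_lapse (hK : IsKS l V (pt (f y) y)) (hd : DifferentiableAt ℝ f y)
    (hlen : ∑ i, Stmt.pd i f y ^ 2 ≤ 1) {N : ℝ} (hN2 : N ^ 2 * bb l V f y = 1) :
    V (pt (f y) y) * (N * (l 0 (pt (f y) y) +
      ∑ i : Fin n, l i.succ (pt (f y) y) * pd i f y)) ^ 2 ≤ 1 := by
  set τ : ℝ := l 0 (pt (f y) y) + ∑ i : Fin n, l i.succ (pt (f y) y) * pd i f y with hτ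
  have h0 := hK.fut.ne'
  have e1 : l 0 (pt (f y) y) * ss l f y = τ := by
    unfold ss uh
    rw [hτ, mul_add, mul_one, Finset.mul_sum]
    congr 1
    exact Finset.sum_congr rfl fun i _ => by field_simp
  have e2 : bb l V f y = 1 - ∑ i, pd i f y ^ 2 + V (pt (f y) y) * τ ^ 2 := by
    unfold bb vv
    rw [← e1]; ring
  have e3 : ∑ i, pd i f y ^ 2 ≤ 1 := by
    refine le_trans (le_of_eq (Finset.sum_congr rfl fun i _ => ?_)) hlen
    rw [Vale.Agent.P366.Bridge.pd_eq hd]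
  rw [← hN2, e2]
  have e4 : 0 ≤ N ^ 2 * (1 - ∑ i, pd i f y ^ 2) := mul_nonneg (sq_nonneg _) (by linarith)
  have e5 : N ^ 2 * (1 - ∑ i, pd i f y ^ 2 + V (pt (f y) y) * τ ^ 2) =
      N ^ 2 * (1 - ∑ i, pd i f y ^ 2) + V (pt (f y) y) * (N * τ) ^ 2 := by ring
  rw [e5]
  linarith

/-- the sharpened condition in terms of the induced data -/
theorem sharp_ind (hS : IsSliceL C l V f D) (hy : ∀ᶠ z in 𝓝 y, 0 ≤ D.F z)
    (hsh : SharpAt l f D y) :
    (Stmt.mu (indG (ksL l V) f) (indK (ksL l V) f) y -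
      (∑ i, ∑ j, (Stmt.mat (indG (ksL l V) f) y)⁻¹ i j *
        Stmt.mom (indG (ksL l V) f) (indK (ksL l V) f) i y * resL l f j y) /
      Stmt.covNorm (indG (ksL l V) f) (resL l f) y) ^ 2 +
      Stmt.covNorm (indG (ksL l V) f) (Stmt.mom (indG (ksL l V) f) (indK (ksL l V) f)) y ^ 2 ≤
      Stmt.mu (indG (ksL l V) f) (indK (ksL l V) f) y ^ 2 := by
  have hg : D.g =ᶠ[𝓝 y] indG (ksL l V) f := by
    filter_upwards [hy] with z hz
    funext i j
    exact hS.met z hz i j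
  have hk : D.K =ᶠ[𝓝 y] indK (ksL l V) f := by
    filter_upwards [hy] with z hz
    funext i j
    exact hS.sff z hz i j
  have hup : ∀ i j, Stmt.up D.g i j y = Stmt.up (indG (ksL l V) f) i j y := fun i j =>
    (up_germ hg i j).self_of_nhds
  have hcr : Stmt.covNorm D.g (resL l f) y = Stmt.covNorm (indG (ksL l V) f) (resL l f) y := by
    unfold Stmt.covNorm
    simp only [hup]
  unfold SharpAt at hsh
  rw [mu_germ hg hk, covNorm_germ hg hk, hcr] at hsh
  simp only [hup, mom_germ hg hk] at hsh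
  exact hsh

/-- The density of the flux of `ξ` under the sharpened dominant energy condition. -/
theorem strong_main [Fact (3 ≤ n)] (hS : IsSliceL C l V f D) (hξ : IsFut ξ)
    (hy : ∀ᶠ z in 𝓝 y, 0 ≤ D.F z)
    (hdec : Stmt.covNorm D.g (Stmt.mom D.g D.K) y ≤ Stmt.mu D.g D.K y)
    (hsh : SharpAt l f D y) (hlen : ∑ i, Stmt.pd i f y ^ 2 ≤ 1) :
    0 ≤ ∑ d, ∑ b, ein (ksL l V) d b (pt (f y) y) * (-Nn l V f y d) * ξ b ∧
      (∑ d, ∑ b, ein (ksL l V) d b (pt (f y) y) * (-Nn l V f y d) * ξ b = 0 →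
        ∀ b, ∑ d, ein (ksL l V) d b (pt (f y) y) * (-Nn l V f y d) = 0) := by
  have hy0 := hy.self_of_nhds
  have hK := hS.ks y hy0
  have hd : DifferentiableAt ℝ f y := (hS.smf y hy0).differentiableAt (by simp)
  have hn := hK.null.self_of_nhds
  have hsh' := sharp_ind hS hy hsh
  obtain ⟨U, W, N, hyW, hSl, hdec', hpd, hN, hN2, hNv, -⟩ := data_aux hS hy hdec
  have hMp : ((Stmt.mat (indG (ksL l V) f) y)⁻¹).PosSemidef := hpd.inv.posSemidef
  have hG : ∀ a b, ∑ d, Stmt.up (ksL l V) a d (pt (f y) y) * ksL l V (pt (f y) y) d b =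
      if a = b then 1 else 0 := fun a b => hSl.met.up_g (hSl.map y hyW) a b
  have hG' : ∀ a b, ∑ d, ksL l V (pt (f y) y) a d * Stmt.up (ksL l V) d b (pt (f y) y) =
      if a = b then 1 else 0 := fun a b => hSl.met.g_up (hSl.map y hyW) a b
  have hGi : ∀ a b, Stmt.up (ksL l V) a b (pt (f y) y) =
      ∑ k, ∑ l', (Stmt.mat (indG (ksL l V) f) y)⁻¹ k l' * Tv f k a y * Tv f l' b y -
        Nv (ksL l V) f a y * Nv (ksL l V) f b y := fun a b => GC.up_dec hSl hyW a b
  have hτ0 := tau_pos hS y hy0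
  have hcτ : ∑ a, l a (pt (f y) y) * Nv (ksL l V) f a y = N * (l 0 (pt (f y) y) +
      ∑ i : Fin n, l i.succ (pt (f y) y) * pd i f y) := by
    rw [← tau_eq (V := V) hd hn, Finset.mul_sum]
    exact Finset.sum_congr rfl fun a _ => by rw [hNv]; ring
  have hc0 : 0 < ∑ a, l a (pt (f y) y) * Nv (ksL l V) f a y := by
    rw [hcτ]; exact mul_pos hN hτ0
  have hss := null_frame (L := fun a => l a (pt (f y) y)) hG hG' hGi (up_ll hn)
  have hsn : Stmt.covNorm (indG (ksL l V) f) (resL l f) y =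
      ∑ a, l a (pt (f y) y) * Nv (ksL l V) f a y := by
    have e1 : Stmt.covNorm (indG (ksL l V) f) (resL l f) y =
        √(∑ k, ∑ l', (Stmt.mat (indG (ksL l V) f) y)⁻¹ k l' *
          (∑ a, l a (pt (f y) y) * Tv f k a y) * (∑ a, l a (pt (f y) y) * Tv f l' a y)) := rfl
    rw [e1, hss, Real.sqrt_sq hc0.le]
  have hJ0 : 0 ≤ ∑ k, ∑ l', (Stmt.mat (indG (ksL l V) f) y)⁻¹ k l' *
      Stmt.mom (indG (ksL l V) f) (indK (ksL l V) f) k y *
      Stmt.mom (indG (ksL l V) f) (indK (ksL l V) f) l' y := by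
    have h1 := (cs_orth hMp (J := fun k => Stmt.mom (indG (ksL l V) f) (indK (ksL l V) f) k y)
      (ζ := fun _ => 0) hc0 hss).1
    exact (sq_nonneg _).trans (sub_nonneg.1 h1)
  have hμ0 : 0 ≤ Stmt.mu (indG (ksL l V) f) (indK (ksL l V) f) y :=
    (Real.sqrt_nonneg _).trans hdec'
  have hJμ := (Real.sqrt_le_left hμ0).1 hdec'
  have hJn : Stmt.covNorm (indG (ksL l V) f)
      (Stmt.mom (indG (ksL l V) f) (indK (ksL l V) f)) y ^ 2 =
      ∑ k, ∑ l', (Stmt.mat (indG (ksL l V) f) y)⁻¹ k l' *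
      Stmt.mom (indG (ksL l V) f) (indK (ksL l V) f) k y *
      Stmt.mom (indG (ksL l V) f) (indK (ksL l V) f) l' y := Real.sq_sqrt hJ0
  rw [hsn, hJn] at hsh'
  have hfin := strong_alg (G := fun a b => ksL l V (pt (f y) y) a b)
    (Gi := fun a b => Stmt.up (ksL l V) a b (pt (f y) y)) (T := fun k a => Tv f k a y)
    (N := fun a => Nv (ksL l V) f a y) hMp hG hGi
    (w := fun b => ∑ a, ein (ksL l V) a b (pt (f y) y) * Nv (ksL l V) f a y)
    (L := fun a => l a (pt (f y) y)) (ξ := ξ)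
    (J := fun j => Stmt.mom (indG (ksL l V) f) (indK (ksL l V) f) j y)
    (s := fun j => resL l f j y)
    (μ := Stmt.mu (indG (ksL l V) f) (indK (ksL l V) f) y)
    (c := ∑ a, l a (pt (f y) y) * Nv (ksL l V) f a y)
    (V := V (pt (f y) y)) (δ := ξ 0 ^ 2 - ∑ i : Fin n, ξ i.succ ^ 2)
    (fun j => by rw [GC.mom_ein hSl hyW j, GC.ein_contr])
    (by rw [GC.mu_eq hSl hyW, GC.ein_contr]) (fun j => rfl) rfl hc0 hss (l_fut hK hξ)
    (by
      rw [form_ksL]
      have e : ∑ i : Fin n, ξ i.succ * ξ i.succ = ∑ i : Fin n, ξ i.succ ^ 2 :=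
        Finset.sum_congr rfl fun i _ => (sq _).symm
      rw [e]
      exact le_of_eq (by ring))
    (by have := hξ.2; linarith) (by rw [hcτ]; exact V_lapse hK hd hlen hN2) hμ0 hJμ hsh'
  have hw : ∀ b, ∑ a, ein (ksL l V) a b (pt (f y) y) * Nv (ksL l V) f a y =
      N * ∑ d, ein (ksL l V) d b (pt (f y) y) * (-Nn l V f y d) := by
    intro b
    simp only [hNv, Finset.mul_sum]
    exact Finset.sum_congr rfl fun a _ => by ring
  have hconv : ∑ b, (∑ a, ein (ksL l V) a b (pt (f y) y) * Nv (ksL l V) f a y) * ξ b =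
      N * ∑ d, ∑ b, ein (ksL l V) d b (pt (f y) y) * (-Nn l V f y d) * ξ b := by
    simp only [hw, Finset.mul_sum, Finset.sum_mul]
    rw [Finset.sum_comm]
    exact Finset.sum_congr rfl fun a _ => Finset.sum_congr rfl fun b _ => by ring
  rw [hconv] at hfin
  refine ⟨nonneg_of_mul_nonneg_right hfin.1 hN, fun h0 b => ?_⟩
  have h2 := hfin.2 (by rw [h0, mul_zero]) b
  rw [hw] at h2
  exact (mul_eq_zero.1 h2).resolve_left hN.ne'

end Vale.Agent.P366.KSD
end
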